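import Mathlib

/-! Definitions for P353 (BFSS threshold bound state).  See skeleton/P353/PROOF.md. -/

open MeasureTheory NormedSpace
open Complex (I)
open scoped InnerProductSpace ContDiff

noncomputable section
namespace Vale.Agent.P353

/-- nine copies of `V` (bosonic variables) -/
abbrev EE (V : Type) := PiLp 2 (fun _ : Fin 9 => V)
/-- sixteen copies of `V` (one-particle fermion space) -/
abbrev SS (V : Type) := PiLp 2 (fun _ : Fin 16 => V)
abbrev R16 := Fin 16 → ℝ
abbrev M16 := Matrix (Fin 16) (Fin 16) ℝ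
abbrev M9 := Matrix (Fin 9) (Fin 9) ℝ

/-- compact Lie algebra: bracket with invariant inner product -/
structure CL (V : Type) [NormedAddCommGroup V] [InnerProductSpace ℝ V] where
  br : V →L[ℝ] V →L[ℝ] V
  skew : ∀ a b, br a b = -br b a
  inv : ∀ a b c, ⟪br a b, c⟫_ℝ = -⟪b, br a c⟫_ℝ
  jac : ∀ a b c, br a (br b c) = br (br a b) c + br b (br a c)

/-- Clifford module over a real inner product space `S` -/
structure Cl (S F : Type) [NormedAddCommGroup S] [InnerProductSpace ℝ S]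
    [NormedAddCommGroup F] [InnerProductSpace ℂ F] [CompleteSpace F] where
  th : S →L[ℝ] (F →L[ℂ] F)
  sa : ∀ u, IsSelfAdjoint (th u)
  car : ∀ u v, th u * th v + th v * th u = (⟪u, v⟫_ℝ : ℝ) • (1 : F →L[ℂ] F)

/-- the nine gamma matrices -/
structure Gam where
  g : Fin 9 → M16
  symm : ∀ i, (g i).IsSymm
  cl : ∀ i j, g i * g j + g j * g i = if i = j then (2 : ℝ) • (1 : M16) else 0

def Gam.g2 (G : Gam) (i j : Fin 9) : M16 := (1 / 2 : ℝ) • (G.g i * G.g j - G.g j * G.g i)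

/-- first and second index of the plane number `a` -/
def p1 (a : Fin 4) : Fin 9 := ⟨2 * a, by omega⟩
def p2 (a : Fin 4) : Fin 9 := ⟨2 * a + 1, by omega⟩

/-- gamma matrices, a pure spinor `e + i χ`, and the mass `δ` of the ninth matrix -/
structure Par extends Gam where
  σ : ℝ
  e : R16
  χ : R16
  δ : ℝ
  hσ : σ * σ = 1
  he : e ⬝ᵥ e = 1
  h9 : (g 8).mulVec e = σ • e
  hχ : ∀ a : Fin 4, (g (p1 a) * g (p2 a)).mulVec e = χ
  δ0 : 0 < δ
  δ1 : δ ≤ 1

/-- rotation generator in the plane `a` -/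
def plane (a : Fin 4) : M9 := Matrix.single (p2 a) (p1 a) 1 - Matrix.single (p1 a) (p2 a) 1
def eps : Fin 4 → ℝ := ![6, 5, -6, -5]
/-- the generator `A` of the deformation -/
def Amat : M9 := ∑ a, eps a • plane a
/-- the complex structure on the first eight directions -/
def Imat : M9 := ∑ a, plane a
/-- spin lift of an antisymmetric 9 x 9 matrix -/
def Gam.hat (G : Gam) (A : M9) : M16 := (1 / 4 : ℝ) • ∑ l, ∑ m, A l m • G.g2 l m
/-- `A' = A + (σ δ / 2) I` -/
def Par.A' (P : Par) : M9 := Amat + (P.σ * P.δ / 2) • Imat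
/-- the constant fermion mass matrix of the deformation -/
def Par.M1 (P : Par) : M16 :=
  (2 : ℝ) • (∑ l, ∑ k, Amat l k • Matrix.vecMulVec ((P.g l).mulVec P.e) ((P.g k).mulVec P.e)) +
    (P.δ * P.σ) • (Matrix.vecMulVec P.χ P.e - Matrix.vecMulVec P.e P.χ) - P.hat Amat

section lin
variable {V W : Type} [NormedAddCommGroup V] [InnerProductSpace ℝ V]
  [NormedAddCommGroup W] [InnerProductSpace ℝ W]

/-- apply a map in every component -/
def lift {n : ℕ} (g : V →L[ℝ] W) :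
    PiLp 2 (fun _ : Fin n => V) →L[ℝ] PiLp 2 (fun _ : Fin n => W) :=
  (PiLp.continuousLinearEquiv 2 ℝ (fun _ : Fin n => W)).symm.toContinuousLinearMap ∘L
    ContinuousLinearMap.pi fun i => g ∘L PiLp.proj 2 (fun _ : Fin n => V) i

/-- a real matrix acting on the component index -/
def mat {n m : ℕ} (M : Matrix (Fin n) (Fin m) ℝ) :
    PiLp 2 (fun _ : Fin m => V) →L[ℝ] PiLp 2 (fun _ : Fin n => V) :=
  (PiLp.continuousLinearEquiv 2 ℝ (fun _ : Fin n => V)).symm.toContinuousLinearMap ∘L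
    ContinuousLinearMap.pi fun i => ∑ j, M i j • PiLp.proj 2 (fun _ : Fin m => V) j

/-- the pure tensor `e ⊗ y` -/
def tens {n : ℕ} (e : Fin n → ℝ) : V →L[ℝ] PiLp 2 (fun _ : Fin n => V) :=
  (PiLp.continuousLinearEquiv 2 ℝ (fun _ : Fin n => V)).symm.toContinuousLinearMap ∘L
    ContinuousLinearMap.pi fun i => e i • ContinuousLinearMap.id ℝ V

/-- the contraction `x ↦ ∑ v i • x i` -/
def contr {n : ℕ} (v : Fin n → ℝ) : PiLp 2 (fun _ : Fin n => V) →L[ℝ] V :=
  ∑ i, v i • PiLp.proj 2 (fun _ : Fin n => V) i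

@[simp] lemma lift_apply {n : ℕ} (g : V →L[ℝ] W) (x : PiLp 2 (fun _ : Fin n => V)) (i : Fin n) :
    lift g x i = g (x i) := rfl
@[simp] lemma mat_apply {n m : ℕ} (M : Matrix (Fin n) (Fin m) ℝ)
    (x : PiLp 2 (fun _ : Fin m => V)) (i : Fin n) : mat M x i = ∑ j, M i j • x j := by
  simp [mat]
@[simp] lemma tens_apply {n : ℕ} (e : Fin n → ℝ) (y : V) (i : Fin n) :
    tens e y i = e i • y := rfl
@[simp] lemma contr_apply {n : ℕ} (v : Fin n → ℝ) (x : PiLp 2 (fun _ : Fin n => V)) :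
    contr v x = ∑ i, v i • x i := by simp [contr]

/-- `ψ_e y = ∑ γ^i e ⊗ y_i` -/
def Gam.psi (G : Gam) (e : R16) : EE V →L[ℝ] SS V :=
  mat (Matrix.of fun s i => (G.g i).mulVec e s)

/-- the quadratic part of the supercharge in the direction `e` -/
def s0 (G : Gam) (L : CL V) (e : R16) (x : EE V) : SS V :=
  (-1 / 2 : ℝ) • ∑ i, ∑ j, tens ((G.g2 i j).mulVec e) (L.br (x i) (x j))

/-- the linear part of the deformed supercharge `D` -/
def Par.s1 (P : Par) : EE V →L[ℝ] SS V :=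
  P.psi P.e ∘L mat Amat + P.δ • (tens P.χ ∘L PiLp.proj 2 (fun _ : Fin 9 => V) 8)

/-- the linear part of the deformed supercharges of the sum of squares -/
def Par.s1' (P : Par) (β : Fin 16) : EE V →L[ℝ] SS V :=
  P.psi (P.σ • (P.g 8).mulVec (Pi.single β 1)) ∘L mat P.A'

/-- the commutator potential -/
def CL.pot (L : CL V) (x : EE V) : ℝ := (1 / 4) * ∑ i, ∑ j, ‖L.br (x i) (x j)‖ ^ 2

/-- `Γ(x) = ∑ γ^j ⊗ ad x_j` -/
def Gm (G : Gam) (L : CL V) (x : EE V) : SS V →L[ℝ] SS V :=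
  ∑ j, mat (G.g j) ∘L lift (L.br (x j))

/-- commuting tuples -/
def CL.Comm (L : CL V) (x : EE V) : Prop := ∀ i j, L.br (x i) (x j) = 0

/-- common centraliser of a tuple -/
def CL.cent (L : CL V) (x : EE V) : Submodule ℝ V := ⨅ i, LinearMap.ker (L.br (x i)).toLinearMap

/-- the centre -/
def CL.center (L : CL V) : Submodule ℝ V := LinearMap.ker L.br.toLinearMap

/-- a subspace closed under the bracket -/
def CL.Sub (L : CL V) (l : Submodule ℝ V) : Prop := ∀ a ∈ l, ∀ b ∈ l, L.br a b ∈ l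

/-- the induced structure on a subalgebra -/
def CL.res (L : CL V) (l : Submodule ℝ V) (h : L.Sub l) : CL l where
  br := LinearMap.mkContinuous₂
      (LinearMap.mk₂ ℝ (fun a b : l => (⟨L.br a b, h a a.2 b b.2⟩ : l))
        (fun a a' b => Subtype.ext (by simp)) (fun c a b => Subtype.ext (by simp))
        (fun a b b' => Subtype.ext (by simp)) (fun c a b => Subtype.ext (by simp)))
      ‖L.br‖ fun a b => L.br.le_opNorm₂ a b
  skew a b := Subtype.ext (L.skew a b)
  inv a b c := L.inv a b c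
  jac a b c := Subtype.ext (L.jac a b c)

@[simp] lemma CL.res_br (L : CL V) (l : Submodule ℝ V) (h : L.Sub l) (a b : l) :
    (((L.res l h).br a b : l) : V) = L.br a b := rfl

/-- exponential of an operator (use this on `EE V`, `SS V`, where instance search for `exp` fails) -/
def expL (T : V →L[ℝ] V) : V →L[ℝ] V := exp T

/-- the one-parameter automorphism at time one -/
def CL.ex (L : CL V) (ξ : V) : V →L[ℝ] V := expL (L.br ξ)

/-- invariant scalar (or set-valued) functions -/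
def CL.SInv {α : Type} (L : CL V) (u : EE V → α) : Prop := ∀ ξ x, u (lift (L.ex ξ) x) = u x

end lin

section cliff
variable {S S' E F : Type} [NormedAddCommGroup S] [InnerProductSpace ℝ S] [FiniteDimensional ℝ S]
  [NormedAddCommGroup S'] [InnerProductSpace ℝ S']
  [NormedAddCommGroup E] [InnerProductSpace ℝ E] [FiniteDimensional ℝ E]
  [NormedAddCommGroup F] [InnerProductSpace ℂ F] [CompleteSpace F]

/-- restriction of a Clifford module along an isometry -/
def Cl.res (C : Cl S F) (j : S' →L[ℝ] S) (hj : ∀ u v, ⟪j u, j v⟫_ℝ = ⟪u, v⟫_ℝ) : Cl S' F where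
  th := C.th ∘L j
  sa u := C.sa (j u)
  car u v := by simpa [hj] using C.car (j u) (j v)

/-- spin lift: for antisymmetric `T`, `[spin T, θ u] = θ (T u)` -/
def Cl.spin (C : Cl S F) (T : S →L[ℝ] S) : F →L[ℂ] F :=
  (1 / 2 : ℝ) • ∑ a, C.th (T (stdOrthonormalBasis ℝ S a)) * C.th (stdOrthonormalBasis ℝ S a)

def Cl.Irr (C : Cl S F) : Prop :=
  ∀ W : Submodule ℂ F, (∀ u, ∀ w ∈ W, C.th u w ∈ W) → W = ⊥ ∨ W = ⊤

/-- antisymmetric operator -/
def Skew (T : S →L[ℝ] S) : Prop := ∀ u v, ⟪T u, v⟫_ℝ = -⟪u, T v⟫_ℝ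
/-- symmetric operator -/
def Symm (T : S →L[ℝ] S) : Prop := ∀ u v, ⟪T u, v⟫_ℝ = ⟪u, T v⟫_ℝ
/-- orthogonal complex structure -/
def CS (J : S →L[ℝ] S) : Prop := Skew J ∧ J * J = -1
/-- trace -/
def tr (T : S →L[ℝ] S) : ℝ := LinearMap.trace ℝ S T.toLinearMap

/-- number operator of a complex structure: `dim S / 4 + i spin J` -/
def Cl.num (C : Cl S F) (J : S →L[ℝ] S) : F →L[ℂ] F :=
  ((Module.finrank ℝ S : ℂ) / 4) • 1 + I • C.spin J

/-- Fock vacuum projection of a complex structure, as a polynomial in the number operator -/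
def Cl.vac (C : Cl S F) (J : S →L[ℝ] S) : F →L[ℂ] F :=
  ((List.range (Module.finrank ℝ S)).map fun k : ℕ =>
    (1 : F →L[ℂ] F) - ((k : ℂ) + 1)⁻¹ • C.num J).prod

/-- first order operator `-i θ(ψ e_k) ∂_k + θ(s x)` -/
def Cl.dirac (C : Cl S F) (ψ : E →L[ℝ] S) (s : E → S) (φ : E → F) (x : E) : F :=
  (-I) • ∑ k, C.th (ψ (stdOrthonormalBasis ℝ E k)) (fderiv ℝ φ x (stdOrthonormalBasis ℝ E k)) +
    C.th (s x) (φ x)

/-- smooth compactly supported -/
def Tst (φ : E → F) : Prop := ContDiff ℝ ∞ φ ∧ HasCompactSupport φ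

/-- squared Hilbert-Schmidt norm of the derivative -/
def g2 (φ : E → F) (x : E) : ℝ := ∑ k, ‖fderiv ℝ φ x (stdOrthonormalBasis ℝ E k)‖ ^ 2

variable [MeasurableSpace E] [BorelSpace E]

def n2 (φ : E → F) : ℝ := ∫ x, ‖φ x‖ ^ 2
def wt (w : E → ℝ) (φ : E → F) : ℝ := ∫ x, w x * ‖φ x‖ ^ 2
def kin (φ : E → F) : ℝ := (1 / 2) * ∫ x, g2 φ x
def opf (B : E → F →L[ℂ] F) (φ : E → F) : ℝ := ∫ x, (⟪φ x, B x (φ x)⟫_ℂ).re
/-- Schroedinger form with scalar potential `w` and matrix potential `B` -/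
def sch (w : E → ℝ) (B : E → F →L[ℂ] F) (φ : E → F) : ℝ := kin φ + wt w φ + opf B φ

end cliff

/-- a model: Lie algebra and Clifford module -/
structure Mod (V F : Type) [NormedAddCommGroup V] [InnerProductSpace ℝ V]
    [NormedAddCommGroup F] [InnerProductSpace ℂ F] [CompleteSpace F] where
  L : CL V
  C : Cl (SS V) F

section model
variable {V F : Type} [NormedAddCommGroup V] [InnerProductSpace ℝ V] [FiniteDimensional ℝ V]
  [NormedAddCommGroup F] [InnerProductSpace ℂ F] [CompleteSpace F]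

omit [FiniteDimensional ℝ V] in
lemma inner_lift_subtype {n : ℕ} (l : Submodule ℝ V) (u v : PiLp 2 (fun _ : Fin n => l)) :
    ⟪lift l.subtypeL u, lift l.subtypeL v⟫_ℝ = ⟪u, v⟫_ℝ := by
  simp [PiLp.inner_apply]

/-- the model of a subalgebra (same module) -/
def Mod.res (M : Mod V F) (l : Submodule ℝ V) (h : M.L.Sub l) : Mod l F where
  L := M.L.res l h
  C := M.C.res (lift l.subtypeL) (inner_lift_subtype l)

/-- gauge action on the module -/
def Mod.rho (M : Mod V F) (ξ : V) : F →L[ℂ] F := exp (M.C.spin (lift (M.L.br ξ)))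

/-- gauge invariant functions -/
def Mod.Inv (M : Mod V F) (φ : EE V → F) : Prop :=
  ∀ ξ x, φ (lift (M.L.ex ξ) x) = M.rho ξ (φ x)

/-- invariance under the rotations generated by `A` -/
def Mod.RInv (M : Mod V F) (G : Gam) (A : M9) (φ : EE V → F) : Prop :=
  ∀ (t : ℝ) x, φ (expL (t • (mat A : EE V →L[ℝ] EE V)) x) =
    exp (t • M.C.spin (mat (G.hat A))) (φ x)

/-- supercharge in the direction `e` with coupling `lam` -/
def Mod.Q (M : Mod V F) (G : Gam) (e : R16) (lam : ℝ) : (EE V → F) → EE V → F :=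
  M.C.dirac (G.psi e) fun x => lam • s0 G M.L e x

/-- the deformed supercharge -/
def Mod.D (M : Mod V F) (P : Par) (lam mu : ℝ) : (EE V → F) → EE V → F :=
  M.C.dirac (P.psi P.e) fun x => lam • s0 P.toGam M.L P.e x + mu • P.s1 x

/-- the deformed supercharges of the sum of squares -/
def Mod.D' (M : Mod V F) (P : Par) (β : Fin 16) (lam mu : ℝ) : (EE V → F) → EE V → F :=
  M.C.dirac (P.psi (Pi.single β 1)) fun x =>
    lam • s0 P.toGam M.L (Pi.single β 1) x + mu • P.s1' β x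

/-- angular momentum operator of the rotation `A` -/
def Mod.J (M : Mod V F) (G : Gam) (A : M9) (φ : EE V → F) (x : EE V) : F :=
  (-I) • fderiv ℝ φ x (mat A x) + I • M.C.spin (mat (G.hat A)) (φ x)

variable [MeasurableSpace V] [BorelSpace V]

/-- the undeformed form -/
def Mod.q0 (M : Mod V F) (G : Gam) (lam : ℝ) : (EE V → F) → ℝ :=
  sch (fun x => lam ^ 2 * M.L.pot x) fun x => I • M.C.spin ((-lam) • Gm G M.L x)

/-- the deformed form -/
def Mod.q (M : Mod V F) (P : Par) (lam mu : ℝ) : (EE V → F) → ℝ :=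
  sch (fun x => (1 / 2) * ‖lam • s0 P.toGam M.L P.e x + mu • P.s1 x‖ ^ 2)
    fun x => I • M.C.spin ((-lam) • Gm P.toGam M.L x + mu • mat P.M1)

/-- the sum of squares -/
def Mod.sos (M : Mod V F) (P : Par) (lam mu : ℝ) (φ : EE V → F) : ℝ :=
  (1 / 16) * ∑ β, n2 (M.D' P β lam mu φ)

/-- zero energy states: limits of invariant test functions with vanishing form -/
def Mod.Ker (M : Mod V F) (G : Gam) : Set (Lp F 2 (volume : Measure (EE V))) :=
  {ψ | ∃ φ : ℕ → EE V → F, (∀ n, Tst (φ n) ∧ M.Inv (φ n)) ∧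
    Filter.Tendsto (fun n => ∫ x, ‖φ n x - ψ x‖ ^ 2) Filter.atTop (nhds 0) ∧
    Filter.Tendsto (fun n => ∑ β, n2 (M.Q G (Pi.single β 1) 1 (φ n))) Filter.atTop (nhds 0)}

end model

/-- identification of `V` with the traceless Hermitian matrices -/
structure SUN {V : Type} [NormedAddCommGroup V] [InnerProductSpace ℝ V] (L : CL V) (N : ℕ) where
  hat : V →ₗ[ℝ] Matrix (Fin N) (Fin N) ℂ
  herm : ∀ a, (hat a).IsHermitian
  tr0 : ∀ a, (hat a).trace = 0
  inn : ∀ a b, (hat a * hat b).trace = (⟪a, b⟫_ℝ : ℝ)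
  surj : ∀ X : Matrix (Fin N) (Fin N) ℂ, X.IsHermitian → X.trace = 0 → ∃ a, hat a = X
  comm : ∀ a b, hat a * hat b - hat b * hat a = I • hat (L.br a b)

end Vale.Agent.P353
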